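import Vale.Agent.P300.H749.CmpCpx
import Vale.Agent.P300.PROJ.Overlap

/-!
# P300, glue [X] → [PROJ]: the chart system of the completion
-/

open Set Filter Topology
open scoped Manifold ContDiff

namespace Vale.Agent.P300.H214

open Vale.Agent.P300.H573 Vale.Agent.P300.Cpx

variable {Y X0 : Type} [TopologicalSpace Y] [TopologicalSpace X0] {q : X0 → Y} {D : Models q}
  [T2Space Y] [LocallyCompactSpace Y] (C : CpxModels D)

/-- The punctured domain of a chart. -/
def om0 (i : D.I) : Set E2 := {z | ∃ hz : z ∈ C.Ω i, C.φ i ⟨z, hz⟩ ∈ D.M0 i}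

omit [T2Space Y] [LocallyCompactSpace Y] in
theorem om0_dense (i : D.I) : C.Ω i ⊆ closure (om0 C i) := by
  intro z hz
  have h1 : Dense ((C.φ i) ⁻¹' (D.M0 i)) := (D.dense_M0 i).preimage (C.φ i).isOpenMap
  have h2 := h1 ⟨z, hz⟩
  have h3 := image_closure_subset_closure_image (f := (Subtype.val : C.Ω i → E2))
    continuous_subtype_val (mem_image_of_mem _ h2)
  refine closure_mono ?_ h3
  rintro _ ⟨w, hw, rfl⟩
  exact ⟨w.2, hw⟩

/-- The chart system of the completion. -/
noncomputable def chartsOf (th : D.I → E2 → X0)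
    (hth : ∀ i z (hz : z ∈ C.Ω i) (h0 : C.φ i ⟨z, hz⟩ ∈ D.M0 i),
      th i z = D.h i ⟨C.φ i ⟨z, hz⟩, h0⟩) :
    letI := C.atlas.charted; PROJ.Charts E2 D.Cmp X0 D.I :=
  letI := C.atlas.charted
  { Ph := fun i => (C.atlas.e i).symm
    Om0 := om0 C
    th := th
    sub := fun i z hz => by
      obtain ⟨h1, -⟩ := hz
      show z ∈ (C.atlas.e i).target
      rw [C.atlas_target]
      exact h1
    dense := fun i => by
      show (C.atlas.e i).target ⊆ _
      rw [C.atlas_target]
      exact om0_dense C i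
    compat := fun i j z w hz hw h => by
      obtain ⟨h1, h2⟩ := hz
      have hw' : w ∈ C.Ω j := by
        have : w ∈ (C.atlas.e j).target := hw
        rwa [C.atlas_target] at this
      have e1 : (C.atlas.e i).symm z = D.hat i (C.φ i ⟨z, h1⟩) := C.atlas_symm i ⟨z, h1⟩
      have e2 : (C.atlas.e j).symm w = D.hat j (C.φ j ⟨w, hw'⟩) := C.atlas_symm j ⟨w, hw'⟩
      have e3 : D.hat j (C.φ j ⟨w, hw'⟩) = D.incl (D.h i ⟨C.φ i ⟨z, h1⟩, h2⟩) := by
        rw [D.incl_h, ← e2, ← e1]
        exact h.symm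
      obtain ⟨hp, hp'⟩ := D.mem_M0_of_eq_incl e3
      exact ⟨⟨hw', hp⟩, by rw [hth i z h1 h2, hth j w hw' hp, hp']⟩
    cover := fun x => C.atlas.cover x
    holo := fun i => C.atlas.e_symm_contMDiffOn i
    holo_symm := fun i => C.atlas.e_contMDiffOn i }

theorem chartsOf_source (th : D.I → E2 → X0) (hth) (i : D.I) :
    letI := C.atlas.charted; ((chartsOf C th hth).Ph i).source = C.Ω i :=
  C.atlas_target i

theorem chartsOf_target (th : D.I → E2 → X0) (hth) (i : D.I) :
    letI := C.atlas.charted; ((chartsOf C th hth).Ph i).target = range (D.hat i) :=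
  C.atlas_source i

theorem chartsOf_Ph (th : D.I → E2 → X0) (hth) (i : D.I) (z : C.Ω i) :
    letI := C.atlas.charted; (chartsOf C th hth).Ph i z = D.hat i (C.φ i z) :=
  C.atlas_symm i z

theorem chartsOf_Om0 (th : D.I → E2 → X0) (hth) (i : D.I) :
    letI := C.atlas.charted; (chartsOf C th hth).Om0 i = om0 C i := rfl

theorem chartsOf_th (th : D.I → E2 → X0) (hth) (i : D.I) :
    letI := C.atlas.charted; (chartsOf C th hth).th i = th i := rfl

end Vale.Agent.P300.H214
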