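import Vale.Agent.P300.H214.Cone
import Vale.Agent.P300.H86.Spec

/-!
# P300, glue [EMB] → [CHOW]: a compact complex surface in projective space is algebraic, from
helper86's `ChowProp`
-/

open scoped Manifold ContDiff LinearAlgebra.Projectivization Topology
open Set Filter

namespace Vale.Agent.P300.H214

variable {X : Type*} [TopologicalSpace X] {N : ℕ} {Φ : X → ℙ ℂ (Fin (N + 1) → ℂ)}
  [ChartedSpace (Fin 2 → ℂ) X]

theorem fin2_eq (v : Fin 2 → ℂ) : v = v 0 • Pi.single 0 1 + v 1 • Pi.single 1 1 := by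
  funext i
  fin_cases i <;> simp

/-- Linear independence from the immersion condition. -/
theorem linInd {n : ℕ} {F : (Fin 2 → ℂ) → Fin n → ℂ} {u : Fin 2 → ℂ} (h0 : F u ≠ 0)
    (h : ∀ (v : Fin 2 → ℂ) (c : ℂ), fderiv ℂ F u v = c • F u → v = 0) :
    LinearIndependent ℂ
      ![F u, fderiv ℂ F u (Pi.single 0 1), fderiv ℂ F u (Pi.single 1 1)] := by
  rw [Fintype.linearIndependent_iff]
  intro g hg
  rw [Fin.sum_univ_three] at hg
  simp only [Matrix.cons_val_zero, Matrix.cons_val_one, Matrix.cons_val] at hg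
  have h1 : fderiv ℂ F u ![g 1, g 2] = (-g 0) • F u := by
    have h2 : (![g 1, g 2] : Fin 2 → ℂ) = g 1 • Pi.single 0 1 + g 2 • Pi.single 1 1 := by
      funext i
      fin_cases i <;> simp
    rw [h2, map_add, map_smul, map_smul, neg_smul, eq_neg_iff_add_eq_zero]
    rw [← hg]
    abel
  have h3 := h _ _ h1
  have h4 : g 1 = 0 := by simpa using congrFun h3 0
  have h5 : g 2 = 0 := by simpa using congrFun h3 1
  have h6 : g 0 = 0 := by
    rw [h4, h5, zero_smul, zero_smul, add_zero, add_zero] at hg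
    exact (smul_eq_zero.1 hg).resolve_right h0
  intro i
  fin_cases i
  · exact h6
  · exact h4
  · exact h5

variable [IsManifold 𝓘(ℂ, Fin 2 → ℂ) ω X]

/-- The cone over the image, as an input of [CHOW]. -/
theorem exists_projAtlas [CompactSpace X] (hinj : Function.Injective Φ)
    (h : IsProjectiveImmersion (Fin 2 → ℂ) Φ) : Nonempty (H86.ProjAtlas (cone Φ univ)) := by
  choose D F V hV hx hC hcov using exists_coneChart (E := Fin 2 → ℂ) hinj h
  obtain ⟨t, ht⟩ := CompactSpace.elim_nhds_subcover V fun x => (hV x).mem_nhds (hx x)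
  refine ⟨{
    ι := ULift.{0} (Fin t.card)
    cnt := inferInstance
    D := fun i => D (t.equivFin.symm i.down)
    F := fun i => F (t.equivFin.symm i.down)
    zero := fun h0 => h0.1 rfl
    smul := fun v hv s hs => smul_mem_cone hs hv
    closed := by
      have := isClosed_cone (IsProjectiveImmersion.locLift h) (isCompact_univ (X := X))
      rwa [union_singleton]
    openD := fun i => (hC _).isOpen
    diff := fun i => (hC _).diff
    mem := fun i => (hC _).mem
    cover := ?_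
    inj := fun i u hu u' hu' s hs => (hC _).inj u' hu' u hu s hs
    imm := fun i u hu => linInd ((hC _).mem u hu).1 ((hC _).imm u hu)
    openImg := ?_ }⟩
  · rintro v ⟨hv, x, -, hxv⟩
    have hxt : x ∈ (⊤ : Set X) := trivial
    rw [← ht] at hxt
    simp only [mem_iUnion, exists_prop] at hxt
    obtain ⟨y, hy, hxy⟩ := hxt
    obtain ⟨u, hu, hFu, hΦ⟩ := hcov y x hxy
    refine ⟨⟨t.equivFin ⟨y, hy⟩⟩, u, ?_⟩
    simp only [Equiv.symm_apply_apply]
    refine ⟨hu, ?_⟩
    rw [hΦ] at hxv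
    obtain ⟨a, ha⟩ := (Projectivization.mk_eq_mk_iff' ℂ _ _ _ _).1 hxv
    have ha0 : a ≠ 0 := by
      rintro rfl
      rw [zero_smul] at ha
      exact hFu ha.symm
    exact ⟨a⁻¹, inv_ne_zero ha0, by rw [← ha, smul_smul, inv_mul_cancel₀ ha0, one_smul]⟩
  · intro i u hu U hU
    set y := (t.equivFin.symm i.down : X)
    obtain ⟨U', hU'U, hU'o, huU'⟩ := mem_nhds_iff.1 hU
    obtain ⟨O, hO, hO'⟩ := (hC y).open_ (U' ∩ D y) inter_subset_right (hU'o.inter (hC y).isOpen)
    have hmem : F y u ∈ cone Φ univ ∩ O := by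
      rw [← hO']
      exact ⟨1, one_ne_zero, u, ⟨huU', hu⟩, (one_smul _ _).symm⟩
    rw [mem_nhdsWithin]
    refine ⟨O, hO, hmem.2, ?_⟩
    rintro z ⟨hz1, hz2⟩
    have hz : z ∈ cone Φ univ ∩ O := ⟨hz2, hz1⟩
    rw [← hO'] at hz
    obtain ⟨c, -, u', hu', rfl⟩ := hz
    exact ⟨c, u', ⟨hU'U hu'.1, hu'.2⟩, rfl⟩

/-- **A compact complex surface in projective space is algebraic** (from [CHOW]). -/
theorem isProjectiveAlgebraic (hchow : H86.ChowProp) [CompactSpace X]
    (hinj : Function.Injective Φ) (h : IsProjectiveImmersion (Fin 2 → ℂ) Φ) :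
    IsProjectiveAlgebraic (range Φ) := by
  obtain ⟨A⟩ := exists_projAtlas hinj h
  refine ⟨H86.vanish (cone Φ univ), fun P hP => hP.1, fun z hz => ⟨?_, fun hP => ?_⟩⟩
  · rintro ⟨x, hx⟩ P hP
    exact hP.2 z ⟨hz, x, mem_univ _, hx⟩
  · obtain ⟨hz', x, -, hx⟩ := (hchow (cone Φ univ) A).1 z hz hP
    exact ⟨x, hx⟩

/-- 232's `IsSmoothProjective` from [EMB] and [CHOW]. -/
theorem isSmoothProjective (hchow : H86.ChowProp) [CompactSpace X]
    (h : ∃ (N : ℕ) (Φ : X → ℙ ℂ (Fin (N + 1) → ℂ)), Function.Injective Φ ∧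
      IsProjectiveImmersion (Fin 2 → ℂ) Φ) : IsSmoothProjective (Fin 2 → ℂ) X := by
  obtain ⟨N, Φ, h1, h2⟩ := h
  exact ⟨N, Φ, h1, h2, isProjectiveAlgebraic hchow h1 h2⟩

end Vale.Agent.P300.H214
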