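import Vale.Agent.P300.H232.Stmt
import Mathlib.Topology.Compactness.Compact

/-!
# P300, glue [EMB] → [CHOW]: the cone over the image of a compact manifold in projective space
-/

open scoped Manifold ContDiff LinearAlgebra.Projectivization
open Set Filter Topology

namespace Vale.Agent.P300.H214

/-- `Φ` has continuous local lifts. -/
def LocLift {X : Type*} [TopologicalSpace X] {N : ℕ} (Φ : X → ℙ ℂ (Fin (N + 1) → ℂ)) : Prop :=
  ∀ x : X, ∃ (W : Set X) (s : X → Fin (N + 1) → ℂ), IsOpen W ∧ x ∈ W ∧ ContinuousOn s W ∧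
    ∀ y ∈ W, ∃ h : s y ≠ 0, Φ y = Projectivization.mk ℂ (s y) h

/-- The cone over `Φ '' K`. -/
def cone {X : Type*} {N : ℕ} (Φ : X → ℙ ℂ (Fin (N + 1) → ℂ)) (K : Set X) :
    Set (Fin (N + 1) → ℂ) :=
  {z | ∃ h : z ≠ 0, ∃ x ∈ K, Φ x = Projectivization.mk ℂ z h}

theorem minors {n : ℕ} {z w : Fin n → ℂ} (hz : z ≠ 0) (hw : w ≠ 0) :
    Projectivization.mk ℂ z hz = Projectivization.mk ℂ w hw ↔ ∀ i j, z i * w j = z j * w i := by
  rw [Projectivization.mk_eq_mk_iff']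
  constructor
  · rintro ⟨a, rfl⟩ i j
    simp only [Pi.smul_apply, smul_eq_mul]
    ring
  · intro h
    obtain ⟨j, hj⟩ := Function.ne_iff.1 hw
    refine ⟨z j / w j, ?_⟩
    funext i
    have h1 := h i j
    have hj' : w j ≠ 0 := hj
    simp only [Pi.smul_apply, smul_eq_mul]
    field_simp
    rw [← h1, mul_comm]

variable {X : Type*} [TopologicalSpace X] {N : ℕ} {Φ : X → ℙ ℂ (Fin (N + 1) → ℂ)}

theorem isClosed_cone (hΦ : LocLift Φ) {K : Set X} (hK : IsCompact K) :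
    IsClosed (insert 0 (cone Φ K)) := by
  rw [isClosed_iff_ultrafilter]
  intro z u hu hmem
  by_cases hz : z = 0
  · exact Or.inl hz
  right
  have hne : {w : Fin (N + 1) → ℂ | w ≠ 0} ∈ u := hu (isOpen_ne.mem_nhds hz)
  have hc : cone Φ K ∈ u := by
    filter_upwards [hmem, hne] with w hw hw0
    exact hw.resolve_left hw0
  have hex : ∀ w : Fin (N + 1) → ℂ, ∃ x : X, w ∈ cone Φ K →
      x ∈ K ∧ ∃ h : w ≠ 0, Φ x = Projectivization.mk ℂ w h := by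
    intro w
    by_cases hw : w ∈ cone Φ K
    · obtain ⟨h, x, hx, hx'⟩ := hw
      exact ⟨x, fun _ => ⟨hx, h, hx'⟩⟩
    · obtain ⟨w', hw'⟩ := u.nonempty_of_mem hc
      obtain ⟨h, x, -, -⟩ := hw'
      exact ⟨x, fun h => absurd h hw⟩
  choose x hx using hex
  have hK' : K ∈ u.map x := by
    rw [Ultrafilter.mem_map]
    filter_upwards [hc] with w hw
    exact (hx w hw).1
  obtain ⟨x0, hx0, hlim⟩ := hK.ultrafilter_le_nhds (u.map x) (le_principal_iff.2 hK')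
  obtain ⟨W, s, hW, hxW, hs, hsW⟩ := hΦ x0
  obtain ⟨hs0, hs0'⟩ := hsW x0 hxW
  refine ⟨hz, x0, hx0, ?_⟩
  rw [hs0', minors]
  intro i j
  have hlim' : Tendsto x u (𝓝 x0) := hlim
  have t1 : ∀ i, Tendsto (fun w => s (x w) i) u (𝓝 (s x0 i)) := fun i =>
    ((continuous_apply i).continuousAt.tendsto.comp
      ((hs.continuousAt (hW.mem_nhds hxW)).tendsto)).comp hlim'
  have t2 : ∀ j, Tendsto (fun w : Fin (N + 1) → ℂ => w j) u (𝓝 (z j)) := fun j =>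
    (continuous_apply j).continuousAt.tendsto.mono_left hu
  have t3 := (t1 i).mul (t2 j)
  have t4 := (t1 j).mul (t2 i)
  refine tendsto_nhds_unique_of_eventuallyEq t3 t4 ?_
  have hWu : x ⁻¹' W ∈ (u : Filter (Fin (N + 1) → ℂ)) := hlim' (hW.mem_nhds hxW)
  filter_upwards [hWu, hc] with w hw hwc
  obtain ⟨h1, h2⟩ := hsW _ hw
  obtain ⟨-, h3, h4⟩ := hx w hwc
  rw [h2] at h4
  exact (minors _ _).1 h4 i j

omit [TopologicalSpace X] in
theorem smul_mem_cone {K : Set X} {c : ℂ} (hc : c ≠ 0) {z : Fin (N + 1) → ℂ}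
    (hz : z ∈ cone Φ K) : c • z ∈ cone Φ K := by
  obtain ⟨h, x, hx, hx'⟩ := hz
  refine ⟨smul_ne_zero hc h, x, hx, ?_⟩
  rw [hx', Projectivization.mk_eq_mk_iff']
  refine ⟨c⁻¹, ?_⟩
  rw [smul_smul, inv_mul_cancel₀ hc, one_smul]

/-- Open sets of `X` give open sets of the cone. -/
theorem exists_open (hΦ : LocLift Φ) (hinj : Function.Injective Φ) [CompactSpace X] {W : Set X}
    (hW : IsOpen W) : ∃ O : Set (Fin (N + 1) → ℂ), IsOpen O ∧ cone Φ W = cone Φ univ ∩ O := by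
  refine ⟨(insert 0 (cone Φ Wᶜ))ᶜ, (isClosed_cone hΦ hW.isClosed_compl.isCompact).isOpen_compl, ?_⟩
  ext z
  constructor
  · rintro ⟨h, x, hx, hx'⟩
    refine ⟨⟨h, x, mem_univ _, hx'⟩, ?_⟩
    rintro (h0 | ⟨h0, y, hy, hy'⟩)
    · exact h h0
    · rw [← hy'] at hx'
      exact hy (hinj hx' ▸ hx)
  · rintro ⟨⟨h, x, -, hx'⟩, h2⟩
    refine ⟨h, x, ?_, hx'⟩
    by_contra hcon
    exact h2 (Or.inr ⟨h, x, hcon, hx'⟩)

section charts

variable {E : Type*} [NormedAddCommGroup E] [NormedSpace ℂ E] [ChartedSpace E X]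

theorem IsProjectiveImmersion.locLift (h : IsProjectiveImmersion E Φ) : LocLift Φ := by
  intro x
  obtain ⟨W, s, hW, hx, hs, hsW, -⟩ := h x
  exact ⟨W, s, hW, hx, hs.continuousOn, hsW⟩

/-- The data of a chart of the cone: `D` open in `E`, `F : D → cone`. -/
structure ConeChart (E : Type*) [NormedAddCommGroup E] [NormedSpace ℂ E] {n : ℕ}
    (C : Set (Fin n → ℂ)) (D : Set E) (F : E → Fin n → ℂ) : Prop where
  isOpen : IsOpen D
  diff : DifferentiableOn ℂ F D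
  mem : ∀ u ∈ D, F u ∈ C
  imm : ∀ u ∈ D, ∀ (v : E) (c : ℂ), fderiv ℂ F u v = c • F u → v = 0
  inj : ∀ u ∈ D, ∀ u' ∈ D, ∀ c : ℂ, F u = c • F u' → u = u'
  open_ : ∀ W ⊆ D, IsOpen W → ∃ O : Set (Fin n → ℂ), IsOpen O ∧
    {z | ∃ c : ℂ, c ≠ 0 ∧ ∃ u ∈ W, z = c • F u} = C ∩ O

variable [IsManifold 𝓘(ℂ, E) ω X]

theorem exists_coneChart [CompactSpace X] (hinj : Function.Injective Φ)
    (h : IsProjectiveImmersion E Φ) (x : X) :
    ∃ (D : Set E) (F : E → Fin (N + 1) → ℂ) (V : Set X), IsOpen V ∧ x ∈ V ∧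
      ConeChart E (cone Φ univ) D F ∧
      ∀ y ∈ V, ∃ u ∈ D, ∃ hu : F u ≠ 0, Φ y = Projectivization.mk ℂ (F u) hu := by
  obtain ⟨W, s, hW, hx, hs, hsW, himm⟩ := h x
  set e := chartAt E x with he
  have hes : ContMDiffOn 𝓘(ℂ, E) 𝓘(ℂ, E) ω e.symm e.target := contMDiffOn_chart_symm
  have hee : ContMDiffOn 𝓘(ℂ, E) 𝓘(ℂ, E) ω e e.source := contMDiffOn_chart
  set D : Set E := e.target ∩ e.symm ⁻¹' W with hD
  have hDo : IsOpen D := e.symm.continuousOn.isOpen_inter_preimage e.open_target hW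
  have hF : ContMDiffOn 𝓘(ℂ, E) 𝓘(ℂ, Fin (N + 1) → ℂ) ω (s ∘ e.symm) D :=
    hs.comp (hes.mono inter_subset_left) (fun u hu => hu.2)
  have hkey : ∀ u ∈ D, ∀ u' ∈ D, ∀ c : ℂ, s (e.symm u) = c • s (e.symm u') → u = u' := by
    intro u hu u' hu' c hc
    obtain ⟨h1, h1'⟩ := hsW _ hu.2
    obtain ⟨h2, h2'⟩ := hsW _ hu'.2
    have h3 : Φ (e.symm u) = Φ (e.symm u') := by
      rw [h1', h2', Projectivization.mk_eq_mk_iff']
      exact ⟨c, hc.symm⟩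
    have h4 := hinj h3
    rw [← e.right_inv hu.1, h4, e.right_inv hu'.1]
  refine ⟨D, s ∘ e.symm, e.source ∩ W, e.open_source.inter hW, ⟨mem_chart_source E x, hx⟩,
    ⟨hDo, ?_, ?_, ?_, hkey, ?_⟩, ?_⟩
  · exact (contMDiffOn_iff_contDiffOn.1 hF).differentiableOn (by simp)
  · intro u hu
    obtain ⟨h1, h2⟩ := hsW _ hu.2
    exact ⟨h1, e.symm u, mem_univ _, h2⟩
  · intro u hu v c hvc
    have hy : e.symm u ∈ e.source := e.map_target hu.1
    have m1 : MDifferentiableAt 𝓘(ℂ, E) 𝓘(ℂ, E) e.symm u :=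
      (hes.contMDiffAt (e.open_target.mem_nhds hu.1)).mdifferentiableAt (by simp)
    have m2 : MDifferentiableAt 𝓘(ℂ, E) 𝓘(ℂ, Fin (N + 1) → ℂ) s (e.symm u) :=
      (hs.contMDiffAt (hW.mem_nhds hu.2)).mdifferentiableAt (by simp)
    have m3 : MDifferentiableAt 𝓘(ℂ, E) 𝓘(ℂ, E) e (e.symm u) :=
      (hee.contMDiffAt (e.open_source.mem_nhds hy)).mdifferentiableAt (by simp)
    have h1 : mfderiv 𝓘(ℂ, E) 𝓘(ℂ, Fin (N + 1) → ℂ) (s ∘ e.symm) u =
        (mfderiv 𝓘(ℂ, E) 𝓘(ℂ, Fin (N + 1) → ℂ) s (e.symm u)).comp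
          (mfderiv 𝓘(ℂ, E) 𝓘(ℂ, E) e.symm u) := mfderiv_comp u m2 m1
    have h2 : mfderiv 𝓘(ℂ, E) 𝓘(ℂ, E) (e ∘ e.symm) u =
        (mfderiv 𝓘(ℂ, E) 𝓘(ℂ, E) e (e.symm u)).comp
          (mfderiv 𝓘(ℂ, E) 𝓘(ℂ, E) e.symm u) := mfderiv_comp u m3 m1
    have h3 : mfderiv 𝓘(ℂ, E) 𝓘(ℂ, E) (e ∘ e.symm) u = ContinuousLinearMap.id ℂ E := by
      have h4 : (e ∘ e.symm) =ᶠ[𝓝 u] id := by
        filter_upwards [e.open_target.mem_nhds hu.1] with w hw
        exact e.right_inv hw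
      rw [h4.mfderiv_eq]
      exact mfderiv_id
    have h5 : mfderiv 𝓘(ℂ, E) 𝓘(ℂ, E) e.symm u v = 0 := by
      refine himm _ hu.2 (mfderiv 𝓘(ℂ, E) 𝓘(ℂ, E) e.symm u v) c ?_
      have h6 := congrArg (fun A => A v) h1
      rw [mfderiv_eq_fderiv] at h6
      exact h6.symm.trans hvc
    have h7 := congrArg (fun A => A v) (h2.symm.trans h3)
    have h8 : (mfderiv 𝓘(ℂ, E) 𝓘(ℂ, E) e (e.symm u))
        (mfderiv 𝓘(ℂ, E) 𝓘(ℂ, E) e.symm u v) = v := h7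
    rw [h5] at h8
    rw [← h8]
    exact map_zero _
  · intro W' hW'D hW'
    have hVo : IsOpen (e.symm '' W') := by
      have : e.symm '' W' = e.source ∩ e ⁻¹' W' :=
        e.symm_image_eq_source_inter_preimage (fun u hu => (hW'D hu).1)
      rw [this]
      exact e.continuousOn.isOpen_inter_preimage e.open_source hW'
    obtain ⟨O, hO, hO'⟩ := exists_open (IsProjectiveImmersion.locLift h) hinj hVo
    refine ⟨O, hO, ?_⟩
    rw [← hO']
    ext z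
    constructor
    · rintro ⟨c, hc, u, hu, rfl⟩
      obtain ⟨h1, h2⟩ := hsW _ (hW'D hu).2
      exact smul_mem_cone hc ⟨h1, e.symm u, mem_image_of_mem _ hu, h2⟩
    · rintro ⟨h1, _, ⟨u, hu, rfl⟩, h2⟩
      obtain ⟨h3, h4⟩ := hsW _ (hW'D hu).2
      rw [h4] at h2
      obtain ⟨a, ha⟩ := (Projectivization.mk_eq_mk_iff' ℂ _ _ _ _).1 h2
      have ha0 : a ≠ 0 := by
        rintro rfl
        rw [zero_smul] at ha
        exact h3 ha.symm
      refine ⟨a⁻¹, inv_ne_zero ha0, u, hu, ?_⟩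
      show z = a⁻¹ • s (e.symm u)
      rw [← ha, smul_smul, inv_mul_cancel₀ ha0, one_smul]
  · rintro y ⟨hy1, hy2⟩
    refine ⟨e y, ⟨e.map_source hy1, ?_⟩, ?_⟩
    · show e.symm (e y) ∈ W
      rw [e.left_inv hy1]; exact hy2
    · obtain ⟨h1, h2⟩ := hsW y hy2
      have h3 : (s ∘ e.symm) (e y) = s y := congrArg s (e.left_inv hy1)
      refine ⟨by rw [h3]; exact h1, ?_⟩
      rw [h2]
      congr 1
      exact h3.symm

end charts

end Vale.Agent.P300.H214
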