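import Vale.Agent.P300.H214.JetInst
import Vale.Agent.P300.H311.FinCov

/-!
# P300, glue: the covering `X0 → V` in the coordinates of the base node is finite
-/

open Set Topology Filter Complex

namespace Vale.Agent.P300.H214

open Vale.Agent.P300.Mod Vale.Agent.P300.H753
open Vale.Agent.P300.H266 (IsFinCov NodeSys)

variable {X0 S : Type} [TopologicalSpace X0] {pr : X0 → H142.U} (D : Lifts H142.R kapU pr S)

theorem base_mem_Rt : ((-1 : ℂ), (-1 : ℂ)) ∈ Rt H142.R := by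
  intro t ht
  have he : ‖exp (-1 : ℂ)‖ < 1 := by
    rw [Complex.norm_exp]
    simp
  have key : ∀ z : ℂ, ‖z‖ < 1 → z ≠ t := by
    rintro z hz rfl
    rw [Complex.norm_real, Real.norm_eq_abs] at hz
    exact absurd ht (not_le.2 ((le_abs_self t).trans_lt hz))
  refine ⟨key _ he, key _ he, key _ ?_⟩
  rw [norm_mul]
  exact mul_lt_one_of_nonneg_of_lt_one_left (norm_nonneg _) he he.le

include D in
theorem isFinCov_pr0 [Finite S] (hcov : IsCoveringMap pr) :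
    IsFinCov (pr0 pr) H266.V (Nat.card S) := by
  have e1 : S ≃ pr ⁻¹' {kapU 0 (exp (-1 : ℂ), exp (-1 : ℂ))} := by
    refine Equiv.ofBijective (fun s => ⟨D.L 0 (-1) (-1) s, ?_⟩) ⟨?_, ?_⟩
    · exact (D.node 0).Lpr _ base_mem_Rt s
    · intro s s' h
      exact (D.node 0).Linj _ base_mem_Rt (congrArg Subtype.val h)
    · rintro ⟨y, hy⟩
      obtain ⟨s, hs⟩ := (D.node 0).Lsurj _ base_mem_Rt y hy
      exact ⟨s, Subtype.ext hs⟩
  exact H311.exists_isFinCov (T := X0) (π := pr) hcov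
    (z₀ := (kapU 0 (exp (-1 : ℂ), exp (-1 : ℂ)) : H142.U))
    ⟨(Finite.equivFin S).symm.trans e1⟩ 0

/-- helper266's final theorem gives the jets. -/
theorem jetsProp_of {p : X0 → Fin 2 → ℂ} {k : ℕ} {D : NodeSys X0 p}
    (h : ∀ (ν : D.Nd) (s₀ : D.ι ν) {x₀ : Fin 2 → ℂ} (_ : x₀ ∈ D.Full ν s₀) (a : ℂ)
      (L : (Fin 2 → ℂ) →L[ℂ] ℂ), ∃ F : X0 → ℂ, D.IsSection k F ∧
      ∀ (s : D.ι ν) (y : Fin 2 → ℂ), y ∈ D.Full ν s → D.pwr ν s y = D.pwr ν s₀ x₀ →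
        ∀ G, D.Ext ν s k F G → (s = s₀ → y = x₀ → G y = a ∧ fderiv ℂ G y = L) ∧
          (¬ (s = s₀ ∧ y = x₀) → G y = 0 ∧ fderiv ℂ G y = 0)) : JetsProp D k := by
  intro ν s x hx α L
  obtain ⟨F, hF, h1⟩ := h ν s hx α L
  refine ⟨F, hF, ?_, ?_⟩
  · obtain ⟨G, hG⟩ := hF ν s
    obtain ⟨h2, -⟩ := h1 s x hx rfl G hG
    exact ⟨G, hG, h2 rfl rfl⟩
  · intro s' y hy hpw hne
    obtain ⟨G, hG⟩ := hF ν s'
    exact ⟨G, hG, ((h1 s' y hy hpw G hG).2 hne).1⟩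

end Vale.Agent.P300.H214
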