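import Vale.Agent.P300.H214.Proj
import Vale.Agent.P300.H354.Final
import Vale.Agent.P300.TOR.Turns

/-!
# P300 : the full theorem (helper214)
-/

namespace Vale.Agent.P300.H214

theorem disproof : H232.DisproofStatement :=
  disproof_of_node_chains (TOR.nodeSpecAll _) (Curve.chains_XX (TOR.nodeSpecAll _))

end Vale.Agent.P300.H214
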