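import Vale.Agent.P300.H214.SP
import Vale.Agent.P300.H214.FinC
import Vale.Agent.P300.H749.Inst2
import Vale.Agent.P300.H242.Coord
import Vale.Agent.P300.H232.End

/-!
# P300, glue of the full theorem: from the completion of a finite covering, [JETS], [CHOW] and
[CHAINS] to the final statement
-/

open Set Topology Filter
open scoped Manifold ContDiff

set_option linter.style.haveILetI false

namespace Vale.Agent.P300.H214

open Vale.Agent.P300.Mod Vale.Agent.P300.H753 Vale.Agent.P300.Cpx

variable {X0 S : Type} [TopologicalSpace X0] {pr : X0 → H142.U} (D : Lifts H142.R kapU pr S)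

/-- `X_F` over `Y = M̄_{0,5}` is smooth projective. -/
theorem isSmoothProjective_Y [Finite S] [Nonempty X0] (hchow : H86.ChowProp) {k : ℕ}
    (J : JetsProp (nodeSys D) k) :
    letI := (cpxF D H242.yData).atlas.charted
    IsSmoothProjective E2 (D.models H242.yData).Cmp := by
  refine isSmoothProjective_F D H242.yData hchow J (fun j : Fin 5 => fun y => H242.crd j y) ?_ ?_
  · intro x y h
    exact H242.crd_injective (funext h)
  · intro j
    exact isHolP1_F D H242.yData (H242.continuous_crd j) (H242.gC_differentiableOn j)
      (H242.crd_yData_inc j)

/-- **The final statement** from the covering, the jets, Chow and the chains of rational curves. -/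
theorem disproof_of [ConnectedSpace X0] [Finite S] (hchow : H86.ChowProp) {k : ℕ}
    (J : JetsProp (nodeSys D) k)
    (hch : letI := (cpxF D H242.yData).atlas.charted
      H232.Chains (Fin 2 → ℂ) (D.models H242.yData).Cmp) : H232.DisproofStatement := by
  letI := (cpxF D H242.yData).atlas.charted
  refine H232.disproofStatement_of ⟨(D.models H242.yData).Cmp, inferInstance,
    (cpxF D H242.yData).atlas.charted, ⟨(cpxF D H242.yData).atlas.isManifold,
      t2Space_F D H242.yData, compactSpace_F D H242.yData, connectedSpace_F D H242.yData,
      isSmoothProjective_Y D hchow J⟩, hch⟩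

end Vale.Agent.P300.H214
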