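import Vale.Agent.P300.H214.Full
import Vale.Agent.P300.H266.Jets
import Vale.Agent.P300.H86.Chow

/-!
# P300, glue of the full theorem with chapter E plugged in
-/

open Set Topology Filter
open scoped Manifold ContDiff

set_option linter.style.haveILetI false

namespace Vale.Agent.P300.H214

open Vale.Agent.P300.Mod Vale.Agent.P300.H753 Vale.Agent.P300.Cpx

variable {X0 S : Type} [TopologicalSpace X0] {pr : X0 → H142.U} (D : Lifts H142.R kapU pr S)

/-- [JETS] for the node system of the lifts. -/
theorem jetsProp [T2Space X0] [SecondCountableTopology X0] [Finite S] (hcov : IsCoveringMap pr) :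
    JetsProp (nodeSys D) 4 :=
  jetsProp_of fun ν s₀ _ hx₀ a L => (nodeSys D).jets (isFinCov_pr0 D hcov) ν s₀ hx₀ a L

/-- **`X_F` is a smooth projective surface.** -/
theorem isSmoothProjective_X [T2Space X0] [SecondCountableTopology X0] [Nonempty X0] [Finite S]
    (hcov : IsCoveringMap pr) :
    letI := (cpxF D H242.yData).atlas.charted
    IsSmoothProjective E2 (D.models H242.yData).Cmp :=
  isSmoothProjective_Y D H86.chow (jetsProp D hcov)

/-- **The final statement**, from the chains of rational curves. -/
theorem disproof_of_chains [T2Space X0] [SecondCountableTopology X0] [ConnectedSpace X0]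
    [Finite S] (hcov : IsCoveringMap pr)
    (hch : letI := (cpxF D H242.yData).atlas.charted
      H232.Chains (Fin 2 → ℂ) (D.models H242.yData).Cmp) : H232.DisproofStatement :=
  disproof_of D H86.chow (jetsProp D hcov) hch

end Vale.Agent.P300.H214
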