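import Vale.Agent.P300.H214.NodeSys
import Vale.Agent.P300.H214.ChartsOf
import Vale.Agent.P300.H749.Inst
import Vale.Agent.P300.PROJ.Main

/-!
# P300, glue [JETS] → [MAIN-PROJ]: the jet hypothesis for the completion
-/

open Set Topology Filter Complex
open scoped Manifold ContDiff

set_option linter.style.haveILetI false

namespace Vale.Agent.P300.H214

open Vale.Agent.P300.Mod Vale.Agent.P300.H753 Vale.Agent.P300.Cpx
open Vale.Agent.P300.H266 (NodeSys Oo Of)

/-- The sections, as a space of functions. -/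
def secSub {X0 : Type} [TopologicalSpace X0] {p : X0 → Fin 2 → ℂ} (D : NodeSys X0 p) (k : ℕ) :
    Submodule ℂ (X0 → ℂ) where
  carrier := {F | D.IsSection k F}
  add_mem' := by
    intro F F' h h' ν s
    obtain ⟨G, hG⟩ := h ν s
    obtain ⟨G', hG'⟩ := h' ν s
    refine ⟨fun x => G x + G' x, hG.holo.add hG'.holo, fun x hx => ?_⟩
    rw [hG.eq x hx, hG'.eq x hx, Pi.add_apply]
    ring
  zero_mem' := fun ν s => ⟨fun _ => 0, differentiableOn_const _, fun x _ => by
    rw [Pi.zero_apply, zero_mul]⟩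
  smul_mem' := by
    intro c F h ν s
    obtain ⟨G, hG⟩ := h ν s
    refine ⟨fun x => c * G x, hG.holo.const_mul c, fun x hx => ?_⟩
    rw [hG.eq x hx, Pi.smul_apply, smul_eq_mul]
    ring

/-- **[JETS]**: arbitrary 1-jets at one point, zeros at the other points of the same fibre. -/
def JetsProp {X0 : Type} [TopologicalSpace X0] {p : X0 → Fin 2 → ℂ} (D : NodeSys X0 p) (k : ℕ) :
    Prop :=
  ∀ ν s, ∀ x ∈ D.Full ν s, ∀ (α : ℂ) (L : (Fin 2 → ℂ) →L[ℂ] ℂ), ∃ F : X0 → ℂ, D.IsSection k F ∧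
    (∃ G, D.Ext ν s k F G ∧ G x = α ∧ fderiv ℂ G x = L) ∧
    ∀ s', ∀ y ∈ D.Full ν s', D.pwr ν s' y = D.pwr ν s x → ¬ (s' = s ∧ y = x) →
      ∃ G, D.Ext ν s' k F G ∧ G y = 0

variable {X0 S Y : Type} [TopologicalSpace X0] [TopologicalSpace Y] [T2Space Y]
  [LocallyCompactSpace Y] {pr : X0 → H142.U} (D : Lifts H142.R kapU pr S)
  (E : YData H142.R kapU Y)

/-- The parametrisation of a piece. -/
noncomputable def thI (i : (D.models E).I) : E2 → X0 :=
  th (D.L (Sigma.fst (show D.I from i))) (D.pp i) (D.qq i) (D.rep i)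

omit [T2Space Y] [LocallyCompactSpace Y] in
theorem hth (i : (D.models E).I) (z : E2) (hz : z ∈ (cpxF D E).Ω i)
    (h0 : (cpxF D E).φ i ⟨z, hz⟩ ∈ (D.models E).M0 i) :
    thI D E i z = (D.models E).h i ⟨(cpxF D E).φ i ⟨z, hz⟩, h0⟩ := rfl

/-- The chart system of `X`. -/
noncomputable def chF : letI := (cpxF D E).atlas.charted
    PROJ.Charts E2 (D.models E).Cmp X0 (D.models E).I :=
  chartsOf (cpxF D E) (thI D E) (hth D E)

/-- the node of a piece -/
def ndI (i : (D.models E).I) : Fin 15 := Sigma.fst (show D.I from i)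

/-- the piece over its node -/
def pcI (i : (D.models E).I) : Pc D (ndI D E i) := Sigma.snd (show D.I from i)

theorem chF_source (i : (D.models E).I) : letI := (cpxF D E).atlas.charted
    ((chF D E).Ph i).source = (nodeSys D).Full (ndI D E i) (pcI D E i) := by
  refine (chartsOf_source (cpxF D E) (thI D E) (hth D E) i).trans ?_
  ext z
  exact (mem_Of_iff _ _ _).symm

theorem chF_Om0 (i : (D.models E).I) : letI := (cpxF D E).atlas.charted
    (chF D E).Om0 i = (nodeSys D).Int (ndI D E i) (pcI D E i) := by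
  ext z
  have h1 : z ∈ (nodeSys D).Int (ndI D E i) (pcI D E i) ↔
      toP z ∈ Omp H142.R (D.pp i) (D.qq i) := mem_Oo_iff _ _ _
  rw [h1]
  constructor
  · rintro ⟨hz, h0⟩
    exact ⟨hz, h0.1, h0.2⟩
  · rintro ⟨h1, h2, h3⟩
    exact ⟨h1, h2, h3⟩

theorem chF_th (i : (D.models E).I) : letI := (cpxF D E).atlas.charted
    (chF D E).th i = (nodeSys D).θ (ndI D E i) (pcI D E i) := rfl

/-- a point of a model -/
def mkM (i : (D.models E).I) (z : E2) (hz : z ∈ OmE H142.R (D.pp i) (D.qq i)) :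
    (D.models E).M i := Subtype.mk z hz

/-- the coordinates of a point of a model -/
def valM (i : (D.models E).I) (p : (D.models E).M i) : E2 :=
  @Subtype.val E2 (fun x => x ∈ OmE H142.R (D.pp i) (D.qq i)) p

omit [T2Space Y] [LocallyCompactSpace Y] in
theorem valM_mem (i : (D.models E).I) (p : (D.models E).M i) :
    valM D E i p ∈ OmE H142.R (D.pp i) (D.qq i) :=
  @Subtype.property E2 (fun x => x ∈ OmE H142.R (D.pp i) (D.qq i)) p

omit [T2Space Y] [LocallyCompactSpace Y] in
theorem mkM_valM (i : (D.models E).I) (p : (D.models E).M i) :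
    mkM D E i (valM D E i p) (valM_mem D E i p) = p := rfl

theorem chF_Ph (i : (D.models E).I) (z : E2) (hz : z ∈ OmE H142.R (D.pp i) (D.qq i)) :
    letI := (cpxF D E).atlas.charted
    (chF D E).Ph i z = (D.models E).hat i (mkM D E i z hz) :=
  chartsOf_Ph (cpxF D E) (thI D E) (hth D E) i ⟨z, hz⟩

omit [LocallyCompactSpace Y] in
theorem proj_hat' (i : (D.models E).I) (p : (D.models E).M i) :
    (D.models E).proj ((D.models E).hat i p) =
      E.kY (ndI D E i) (pw (D.pp i) (D.qq i) (toP (valM D E i p))) :=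
  (D.models E).proj_hat i p

theorem hext {k : ℕ} (i : (D.models E).I) {F : X0 → ℂ} {G : (Fin 2 → ℂ) → ℂ}
    (hG : (nodeSys D).Ext (ndI D E i) (pcI D E i) k F G) : letI := (cpxF D E).atlas.charted
    ContDiffOn ℂ ω G ((chF D E).Ph i).source ∧ ∀ z ∈ (chF D E).Om0 i,
      G z = (nodeSys D).fac (ndI D E i) (pcI D E i) k z * F ((chF D E).th i z) := by
  constructor
  · rw [chF_source]
    have ho : IsOpen ((nodeSys D).Full (ndI D E i) (pcI D E i)) := H266.isOpen_Of
    exact (Vale.Agent.P268.analyticOnNhd_of_differentiableOn ho hG.holo).contDiffOn ho.uniqueDiffOn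
  · intro z hz
    rw [chF_Om0] at hz
    rw [hG.eq z hz, mul_comm]
    rfl

/-- **The jet hypothesis.** -/
theorem jetHyp {k : ℕ} (J : JetsProp (nodeSys D) k) :
    letI := (cpxF D E).atlas.charted
    PROJ.JetHyp (chF D E)
      (fun i z => (nodeSys D).fac (ndI D E i) (pcI D E i) k z)
      (secSub (nodeSys D) k) (ndI D E)
      (fun i z => (nodeSys D).pwr (ndI D E i) (pcI D E i) z) (D.models E).proj := by
  letI := (cpxF D E).atlas.charted
  constructor
  · intro F hF i
    obtain ⟨G, hG⟩ := hF (ndI D E i) (pcI D E i)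
    exact ⟨G, hext D E i hG⟩
  · intro i z hz α L
    rw [chF_source] at hz
    obtain ⟨F, hF, ⟨G, hG, hG1, hG2⟩, h2⟩ := J (ndI D E i) (pcI D E i) z hz α L
    refine ⟨F, hF, ⟨G, (hext D E i hG).1, (hext D E i hG).2, hG1, hG2⟩, ?_⟩
    intro j w hw hν hpw hne
    rw [chF_source] at hw
    obtain ⟨ν, s'⟩ := j
    obtain ⟨μ, s⟩ := i
    obtain rfl : ν = μ := hν
    obtain ⟨G', hG', hG'0⟩ := h2 s' w hw hpw (by
      rintro ⟨rfl, rfl⟩
      exact hne rfl)
    exact ⟨G', (hext D E _ hG').1, (hext D E _ hG').2, hG'0⟩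
  · intro i z hz y hy
    rw [chF_source] at hz
    have hz' : z ∈ OmE H142.R (D.pp i) (D.qq i) := (mem_Of_iff _ _ _).1 hz
    rw [chF_Ph D E i z hz'] at hy
    have hmem : (D.models E).proj y ∈ (D.models E).N ((D.models E).b i) := by
      rw [hy]
      exact (D.models E).proj_hat_mem i _
    obtain ⟨j, hj, p, rfl⟩ := (D.models E).exists_hat_of_mem y _ hmem
    rw [proj_hat', proj_hat'] at hy
    have hj' : ndI D E j = ndI D E i := hj
    have hpO := valM_mem D E j p
    refine ⟨j, valM D E j p, ?_, hj, ?_, ?_⟩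
    · rw [chF_source]
      exact (mem_Of_iff _ _ _).2 hpO
    · rw [hj'] at hy
      have h2 := E.inj (ndI D E i)
        (show pw (D.pp j) (D.qq j) (toP (valM D E j p)) ∈ H142.R from hpO)
        (show pw (D.pp i) (D.qq i) (toP z) ∈ H142.R from hz') hy
      exact toPH.injective h2
    · exact chF_Ph D E j _ hpO

end Vale.Agent.P300.H214
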