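import Vale.Agent.P300.H921.TorMod
import Vale.Agent.P300.PROJ.Node
import Vale.Agent.P300.H266.Sys

/-!
# P300, glue [X] → [JETS]: the node system of the lifts

From helper921's `Lifts` over the frozen node table to helper266's `NodeSys`.
-/

open Set Topology Filter Complex

namespace Vale.Agent.P300.H214

open Vale.Agent.P300.Mod Vale.Agent.P300.H753
open Vale.Agent.P300.H266 (NodeSys Oo Of)

/-- a pair as a point of `ℂ²` -/
noncomputable def e2 (w : ℂ × ℂ) : Fin 2 → ℂ := toPH.symm w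

@[simp] theorem e2_zero (w : ℂ × ℂ) : e2 w 0 = w.1 := rfl
@[simp] theorem e2_one (w : ℂ × ℂ) : e2 w 1 = w.2 := rfl
@[simp] theorem toP_e2 (w : ℂ × ℂ) : toP (e2 w) = w := rfl
theorem e2_toP (x : Fin 2 → ℂ) : e2 (toP x) = x := toPH.symm_apply_apply x

theorem toP_pw (p q : ℕ) (x : Fin 2 → ℂ) : toP (H266.pw p q x) = pw p q (toP x) := rfl

theorem mem_Ray_iff (z : ℂ) : z ∈ H266.Ray ↔ ∃ t : ℝ, 1 ≤ t ∧ z = t := by
  constructor
  · rintro ⟨h1, h2⟩
    exact ⟨z.re, h1, Complex.ext rfl (by simpa using h2)⟩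
  · rintro ⟨t, ht, rfl⟩
    exact ⟨by simpa using ht, by simp⟩

theorem mem_R_iff (x : Fin 2 → ℂ) : x ∈ H266.R ↔ toP x ∈ H142.R := by
  constructor
  · rintro ⟨h1, h2, h3⟩ t ht
    rw [mem_Ray_iff] at h1 h2 h3
    exact ⟨fun h => h1 ⟨t, ht, h⟩, fun h => h2 ⟨t, ht, h⟩, fun h => h3 ⟨t, ht, h⟩⟩
  · intro h
    refine ⟨?_, ?_, ?_⟩
    · rw [mem_Ray_iff]; rintro ⟨t, ht, h'⟩; exact (h t ht).1 h'
    · rw [mem_Ray_iff]; rintro ⟨t, ht, h'⟩; exact (h t ht).2.1 h'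
    · rw [mem_Ray_iff]; rintro ⟨t, ht, h'⟩; exact (h t ht).2.2 h'

theorem mem_V_iff (x : Fin 2 → ℂ) : x ∈ H266.V ↔ toP x ∈ H142.W := Iff.rfl

theorem mem_Of_iff (p q : ℕ) (x : Fin 2 → ℂ) : x ∈ Of p q ↔ x ∈ OmE H142.R p q := mem_R_iff _

theorem mem_Oo_iff (p q : ℕ) (x : Fin 2 → ℂ) : x ∈ Oo p q ↔ toP x ∈ Omp H142.R p q := by
  show (H266.pw p q x ∈ H266.R ∧ x 0 * x 1 ≠ 0) ↔ _
  rw [mem_R_iff, mul_ne_zero_iff]
  rfl

variable {X0 S : Type} [TopologicalSpace X0] {pr : X0 → H142.U}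

/-- The coordinates of the base node. -/
noncomputable def pr0 (pr : X0 → H142.U) (e : X0) : Fin 2 → ℂ := e2 (Spec.kapInv 0 (pr e))

omit [TopologicalSpace X0] in
theorem pr0_mem (e : X0) : pr0 pr e ∈ H266.V := by
  rw [mem_V_iff]
  exact Spec.kapInv_mem 0 (pr e).2

omit [TopologicalSpace X0] in
/-- `pr e` in the chart `0`. -/
theorem kap_pr0 (e : X0) : H142.kap 0 (toP (pr0 pr e)) = (pr e : ℂ × ℂ) :=
  Spec.kap_kapInv 0 (pr e).2

omit [TopologicalSpace X0] in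
theorem pr0_eq {e : X0} {ν : Fin 15} {w : Fin 2 → ℂ} (hw : w ∈ H266.V)
    (h : (pr e : ℂ × ℂ) = H142.kap ν (toP w)) : pr0 pr e = PROJ.gN ν w := by
  have h1 : toP (PROJ.gN ν w) ∈ H142.W := (mem_V_iff _).1 ((PROJ.adm_node ν).maps w hw)
  have h2 : H142.kap ν (toP w) = H142.kap 0 (toP (PROJ.gN ν w)) := PROJ.kap_eq ν hw
  unfold pr0
  rw [h, h2, Spec.kapInv_kap 0 h1, e2_toP]

omit [TopologicalSpace X0] in
theorem pr_eq_kap (ν : Fin 15) (e : X0) :
    (pr e : ℂ × ℂ) = H142.kap ν (toP (PROJ.gN' ν (pr0 pr e))) := by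
  have hV := pr0_mem (pr := pr) e
  have h1 := (PROJ.adm_node ν).maps' _ hV
  have h2 : H142.kap ν (toP (PROJ.gN' ν (pr0 pr e))) =
      H142.kap 0 (toP (PROJ.gN ν (PROJ.gN' ν (pr0 pr e)))) := PROJ.kap_eq ν h1
  rw [h2, (PROJ.adm_node ν).right _ hV, kap_pr0]

variable (D : Lifts H142.R kapU pr S)

/-- The pieces over a node. -/
abbrev Pc (ν : Fin 15) : Type := Quotient (orb (D.a ν) (D.b ν) (D.node ν).comm)

/-- The index of a piece. -/
def ix (ν : Fin 15) (s : Pc D ν) : D.I := Sigma.mk ν s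

theorem ix_fst (ν : Fin 15) (s : Pc D ν) : (ix D ν s).1 = ν := rfl

theorem ix_inj {ν : Fin 15} {s s' : Pc D ν} (h : ix D ν s = ix D ν s') : s = s' :=
  eq_of_heq (Sigma.mk.inj h).2

/-- The node system of the lifts. -/
noncomputable def nodeSys : NodeSys X0 (pr0 pr) where
  Nd := Fin 15
  g := PROJ.gN
  g' := PROJ.gN'
  m := PROJ.mN
  adm := PROJ.adm_node
  ι ν := Pc D ν
  p ν s := D.pp (ix D ν s)
  q ν s := D.qq (ix D ν s)
  p_pos ν s := (D.ord' (ix D ν s)).p0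
  q_pos ν s := (D.ord' (ix D ν s)).q0
  θ ν s x := th (D.L ν) (D.pp (ix D ν s)) (D.qq (ix D ν s)) (D.rep (ix D ν s)) x
  cont ν s := by
    have h1 := (D.node ν).continuousOn_theta (D.ord' (ix D ν s))
    refine h1.comp continuous_toP.continuousOn fun x hx => ?_
    exact (mem_Oo_iff _ _ _).1 hx
  inj ν s := by
    intro x hx y hy h
    have h1 := (D.node ν).injOn_theta (D.ord' (ix D ν s)) ((mem_Oo_iff _ _ _).1 hx)
      ((mem_Oo_iff _ _ _).1 hy) h
    exact toPH.injective h1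
  pr_θ ν s x hx := by
    have h0 := (mem_Oo_iff _ _ _).1 hx
    have h1 := (D.node ν).pr_theta (s := D.rep (ix D ν s)) h0
    refine pr0_eq (ν := ν) (H266.pw_mem_V hx) ?_
    have h2 : ((kapU ν (toP (H266.pw (D.pp (ix D ν s)) (D.qq (ix D ν s)) x)) : H142.U) : ℂ × ℂ) =
        H142.kap ν (toP (H266.pw (D.pp (ix D ν s)) (D.qq (ix D ν s)) x)) :=
      kapU_val ((mem_V_iff _).1 (H266.pw_mem_V hx))
    exact (congrArg Subtype.val h1).trans h2
  disj ν s s' hss x hx y hy h := by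
    have h1 : Disjoint (range (D.h (ix D ν s))) (range (D.h (ix D ν s'))) :=
      D.disj_h (i := ix D ν s) (j := ix D ν s') rfl (fun he => hss (ix_inj D he))
    rw [D.range_h, D.range_h] at h1
    refine h1.le_bot ⟨⟨toP x, (mem_Oo_iff _ _ _).1 hx, rfl⟩, toP y, (mem_Oo_iff _ _ _).1 hy, ?_⟩
    exact h.symm
  surj ν e he := by
    have hV := pr0_mem (pr := pr) e
    have hw := (PROJ.adm_node ν).maps' _ hV
    set w := PROJ.gN' ν (pr0 pr e) with hwdef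
    have hwR : toP w ∈ H142.R := (mem_R_iff _).1 he
    have hw0 : (toP w).1 ≠ 0 := hw.1
    have hw1 : (toP w).2 ≠ 0 := hw.2.1
    have ex : toP w = (exp (log (toP w).1), exp (log (toP w).2)) := by
      rw [Complex.exp_log hw0, Complex.exp_log hw1]
    have hm : (log (toP w).1, log (toP w).2) ∈ Rt H142.R := by
      show (exp (log (toP w).1), exp (log (toP w).2)) ∈ H142.R
      rw [← ex]; exact hwR
    obtain ⟨s, hs⟩ := (D.node ν).Lsurj _ hm e (by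
      apply Subtype.ext
      rw [pr_eq_kap (pr := pr) ν e]
      show _ = ((kapU ν (exp (log (toP w).1), exp (log (toP w).2)) : H142.U) : ℂ × ℂ)
      rw [← ex, kapU_val ((mem_V_iff _).1 hw)])
    have h2 := D.L_mem ν hm s
    rw [hs, D.range_h] at h2
    obtain ⟨y, hy, hye⟩ := h2
    refine ⟨Quotient.mk _ s, e2 y, (mem_Oo_iff _ _ _).2 hy, ?_⟩
    exact hye

end Vale.Agent.P300.H214
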