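import Vale.Agent.P300.H214.FullE
import Vale.Agent.P300.ASM.Glue

/-!
# P300: the surfaces `XX hN n` are smooth projective; the full theorem from NODE and D3
-/

open Set Topology Filter
open scoped Manifold ContDiff

namespace Vale.Agent.P300.H214

open Vale.Agent.P300.ASM

/-- **The surface `X_n` is a smooth projective surface.** -/
theorem isSmoothProjective_XX (hN : Spec.NodeSpec rE) (n : ℕ) :
    IsSmoothProjective (Fin 2 → ℂ) (XX hN n) :=
  isSmoothProjective_X (X0 := rE.Tot (F n)) (pr := prU n) (liftsU hN n) rE.isCoveringMap_pr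

/-- **The full theorem** from NODE and D3. -/
theorem disproof_of_node_chains (hN : Spec.NodeSpec rE)
    (hc : H232.Chains (Fin 2 → ℂ) (XX hN 0)) : H232.DisproofStatement :=
  ASM.disproof_of hN hc (isSmoothProjective_XX hN 0)

end Vale.Agent.P300.H214
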