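import Vale.Agent.P300.H214.JetInst
import Vale.Agent.P300.H933.Chow

/-!
# P300, glue: the completion is a smooth projective surface, from [JETS], [CHOW] and the five
coordinates of `Y`
-/

open Set Topology Filter
open scoped Manifold ContDiff

set_option linter.style.haveILetI false

namespace Vale.Agent.P300.H214

open Vale.Agent.P300.Mod Vale.Agent.P300.H753 Vale.Agent.P300.Cpx

variable {X0 S Y : Type} [TopologicalSpace X0] [TopologicalSpace Y] [T2Space Y]
  [CompactSpace Y] {pr : X0 → H142.U} (D : Lifts H142.R kapU pr S) (E : YData H142.R kapU Y)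

/-- **`X_F` is smooth projective.** -/
theorem isSmoothProjective_F [Finite S] [Nonempty X0] (hchow : H86.ChowProp) {k : ℕ}
    (J : JetsProp (nodeSys D) k) {ι : Type*} [Fintype ι] (c : ι → Y → OnePoint ℂ)
    (hinj : ∀ x y, (∀ i, c i x = c i y) → x = y)
    (hc : letI := (cpxF D E).atlas.charted
      ∀ i, Emb.IsHolP1 E2 (fun x : (D.models E).Cmp => c i ((D.models E).proj x))) :
    letI := (cpxF D E).atlas.charted
    IsSmoothProjective E2 (D.models E).Cmp := by
  letI := (cpxF D E).atlas.charted
  haveI := (cpxF D E).atlas.isManifold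
  haveI := compactSpace_F D E
  haveI : Nonempty (D.models E).Cmp := (inferInstance : Nonempty X0).map (D.models E).incl
  obtain ⟨N, Φ, h1, h2⟩ := (jetHyp D E J).exists_embedding hc
    (fun x y h => hinj _ _ h)
  exact Emb.isSmoothProjective_of_immersion hchow h1 h2

end Vale.Agent.P300.H214
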